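import Vale.Agent.P207.N3.Geo.Over
import Vale.Agent.P207.N3.H266.Metr
import Vale.Agent.P207.Q.H717.Pinch

/-!
# P207, line N3, rows R11, R15: the unstable Riccati solution in the frames of the leaves

* `cl A`: the linear map of the plane with matrix `A`.
* `UK L`: the fields of `Metr L` which do not contain the charts of the leaves.
* `ukOf`: `UK L` from `Over` and `MDat`.
-/

open scoped Manifold ContDiff ENNReal Topology Matrix
open Bundle MeasureTheory Set Filter Metric

set_option maxSynthPendingDepth 3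
set_option linter.unusedSectionVars false

noncomputable section

namespace Vale.Agent.P207.N3.H618

/-! ### matrices and linear maps of the plane -/

/-- the linear map of the plane with matrix `A` -/
def cl (A : Matrix (Fin 2) (Fin 2) ℝ) : E2 →L[ℝ] E2 := Matrix.toEuclideanCLM (𝕜 := ℝ) A

theorem cl_apply (A : Matrix (Fin 2) (Fin 2) ℝ) (v : E2) (i : Fin 2) :
    cl A v i = ∑ j, A i j * v j := rfl

theorem cl_ofLp (A : Matrix (Fin 2) (Fin 2) ℝ) (v : E2) : (cl A v).ofLp = A *ᵥ v.ofLp := rfl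

theorem cl_mul (A A' : Matrix (Fin 2) (Fin 2) ℝ) : cl (A * A') = cl A ∘L cl A' :=
  map_mul (Matrix.toEuclideanCLM (n := Fin 2) (𝕜 := ℝ)) A A'

theorem cl_add (A A' : Matrix (Fin 2) (Fin 2) ℝ) : cl (A + A') = cl A + cl A' :=
  map_add (Matrix.toEuclideanCLM (n := Fin 2) (𝕜 := ℝ)) A A'

theorem cl_sub (A A' : Matrix (Fin 2) (Fin 2) ℝ) : cl (A - A') = cl A - cl A' :=
  map_sub (Matrix.toEuclideanCLM (n := Fin 2) (𝕜 := ℝ)) A A'

theorem cl_neg (A : Matrix (Fin 2) (Fin 2) ℝ) : cl (-A) = -cl A :=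
  map_neg (Matrix.toEuclideanCLM (n := Fin 2) (𝕜 := ℝ)) A

theorem cl_one : cl 1 = ContinuousLinearMap.id ℝ E2 :=
  map_one (Matrix.toEuclideanCLM (n := Fin 2) (𝕜 := ℝ))

theorem cl_injective : Function.Injective cl :=
  (Matrix.toEuclideanCLM (n := Fin 2) (𝕜 := ℝ)).injective

theorem inner_eq_dot (v w : E2) : inner ℝ v w = v.ofLp ⬝ᵥ w.ofLp := by
  rw [PiLp.inner_apply, dotProduct]
  exact Finset.sum_congr rfl fun i _ => mul_comm _ _

theorem inner_cl (A : Matrix (Fin 2) (Fin 2) ℝ) (v w : E2) :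
    inner ℝ (cl A v) w = w.ofLp ⬝ᵥ (A *ᵥ v.ofLp) := by
  rw [inner_eq_dot, cl_ofLp, dotProduct_comm]

theorem inner_cl_symm {A : Matrix (Fin 2) (Fin 2) ℝ} (h : Aᵀ = A) (v w : E2) :
    inner ℝ (cl A v) w = inner ℝ v (cl A w) := by
  rw [inner_cl, inner_eq_dot, cl_ofLp, Matrix.dotProduct_mulVec, ← Matrix.mulVec_transpose, h,
    dotProduct_comm]

/-- elementary matrices as linear maps -/
def el (i j : Fin 2) : E2 →L[ℝ] E2 := cl (Matrix.single i j 1)

theorem cl_eq_sum (A : Matrix (Fin 2) (Fin 2) ℝ) : cl A = ∑ i, ∑ j, A i j • el i j := by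
  have h1 : ∀ i j, A i j • el i j = cl (Matrix.single i j (A i j)) := fun i j => by
    have h2 := map_smul (Matrix.toEuclideanCLM (n := Fin 2) (𝕜 := ℝ)) (A i j)
      (Matrix.single i j (1 : ℝ))
    rw [Matrix.smul_single, smul_eq_mul, mul_one] at h2
    exact h2.symm
  simp only [h1]
  have h3 : ∀ i j, cl (Matrix.single i j (A i j)) =
      Matrix.toEuclideanCLM (n := Fin 2) (𝕜 := ℝ) (Matrix.single i j (A i j)) := fun _ _ => rfl
  simp only [h3, ← map_sum]
  rw [← Matrix.matrix_eq_sum_single]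
  rfl

theorem continuous_cl {Y : Type*} [TopologicalSpace Y] {A : Y → Matrix (Fin 2) (Fin 2) ℝ}
    (h : ∀ i j, Continuous fun y => A y i j) : Continuous fun y => cl (A y) := by
  simp only [cl_eq_sum]
  exact continuous_finsetSum _ fun i _ => continuous_finsetSum _ fun j _ =>
    (h i j).smul continuous_const

theorem hasDerivAt_cl {A : ℝ → Matrix (Fin 2) (Fin 2) ℝ} {A' : Matrix (Fin 2) (Fin 2) ℝ} {t : ℝ}
    (h : ∀ i j, HasDerivAt (fun s => A s i j) (A' i j) t) :
    HasDerivAt (fun s => cl (A s)) (cl A') t := by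
  simp only [cl_eq_sum]
  exact HasDerivAt.fun_sum fun i _ => HasDerivAt.fun_sum fun j _ => (h i j).smul_const (el i j)

/-- the matrix of an isometry of the plane, as a linear map -/
theorem cl_mat (a : O2) : cl (H908.mat a) = (a : E2 ≃L[ℝ] E2).toContinuousLinearMap := by
  refine ContinuousLinearMap.ext fun v => ?_
  ext i
  rw [cl_apply]
  exact (H908.apply_eq a v i).symm

theorem cl_mat_transpose (a : O2) (v : E2) : cl (H908.mat a)ᵀ v = a.symm v := by
  have h1 : cl (H908.mat a)ᵀ ∘L cl (H908.mat a) = ContinuousLinearMap.id ℝ E2 := by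
    rw [← cl_mul, H908.mat_transpose_mul, cl_one]
  have h2 := congrArg (fun T : E2 →L[ℝ] E2 => T (a.symm v)) h1
  simp only [cl_mat, ContinuousLinearMap.coe_comp, Function.comp_apply,
    ContinuousLinearMap.id_apply] at h2
  rw [← h2]
  exact congrArg _ (a.apply_symm_apply v).symm

/-! ### the abstract structure -/

section Abs

variable {Γ X B : Type} [Group Γ] [MetricSpace X] [ProperSpace X] [MulAction Γ X]
  [IsIsometricSMul Γ X] [TopologicalSpace B] [CompactSpace B] [T2Space B] [MulAction Γ B]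
  [ContinuousConstSMul Γ B]

/-- The fields of `Metr L` which do not contain the charts of the leaves. -/
structure UK (L : Leaf Γ X B) where
  U : X → E2 →L[ℝ] E2
  U_cont : Continuous U
  U_symm : ∀ x v w, inner ℝ (U x v) w = inner ℝ v (U x w)
  U_pos : ∀ x v, v ≠ 0 → 0 < inner ℝ (U x v) v
  U_smul : ∀ (g : Γ) x, U (g • x) = U x
  U_rot : ∀ a x v, U (L.rot a x) v = a.symm (U x (a v))
  K : X → E2 →L[ℝ] E2
  K_flip : ∀ x, K (L.flip x) = K x
  riccati : ∀ x t, HasDerivAt (fun s => U (L.φ s x))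
    (-(U (L.φ t x) ∘L U (L.φ t x)) - K (L.φ t x)) t

/-- the part of `Metr L` which contains the charts -/
structure JI (L : Leaf Γ X B) (k : UK L) where
  jac : ∀ x t, HasDerivAt (fun s => fderiv ℝ (L.τ (L.φ s x) x) 0)
    (-(fderiv ℝ (L.τ (L.φ t x) x) 0 ∘L k.U (L.φ t x))) t
  I : X → E2 → E2 →L[ℝ] E2
  I_smooth : ∀ x, ContDiffOn ℝ ∞ (I x) (ball 0 3)
  I_cont : ∀ k : ℕ, ContinuousOn (fun p : X × E2 => iteratedFDeriv ℝ k (I p.1) p.2)
    (univ ×ˢ ball 0 3)
  I_eq : ∀ x z, L.em z = L.em x → L.lv z = L.lv x → ∀ u ∈ ball (0 : E2) 3, L.e x u = L.ep z →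
    I x u = fderiv ℝ (L.τ z x) 0 ∘L ContinuousLinearMap.adjoint (fderiv ℝ (L.τ z x) 0)

/-- the horospherical metric -/
def UK.metr {L : Leaf Γ X B} (k : UK L) (m : JI L k) : Metr L where
  U := k.U
  U_cont := k.U_cont
  U_symm := k.U_symm
  U_pos := k.U_pos
  U_smul := k.U_smul
  U_rot := k.U_rot
  K := k.K
  K_flip := k.K_flip
  riccati := k.riccati
  jac := m.jac
  I := m.I
  I_smooth := m.I_smooth
  I_cont := m.I_cont
  I_eq := m.I_eq

end Abs

/-! ### the instance -/

section Inst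

open Vale.Agent.P255 (RMetric)
open Vale.Agent.P207.Q Vale.Agent.P207.Q.H130 Vale.Agent.P207.Q.H545 Vale.Agent.P207.Q.H892
open H908 (mo ext mat)

variable {M : Type} [TopologicalSpace M] [ChartedSpace (EV 3) M] [IsManifold 𝓘(ℝ, EV 3) ∞ M]
  {g : RMetric (EV 3) M}

theorem ext_single_zero (a : O2) :
    ext a (EuclideanSpace.single (0 : Fin 3) (1 : ℝ)) = EuclideanSpace.single 0 1 := by
  have h2 : H908.tl (EuclideanSpace.single (0 : Fin 3) (1 : ℝ)) = 0 := by
    ext i
    fin_cases i <;> simp [H908.tl]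
  rw [H908.ext_apply, h2, map_zero]
  ext i
  fin_cases i <;> simp [H908.cs]

theorem mo_ext_mem (a : O2) : mo (ext a) ∈ Stab 3 := by
  rw [mem_Stab]
  ext i
  have h1 : ∀ i, (mo (ext a)).1 i 0 = EuclideanSpace.single (0 : Fin 3) (1 : ℝ) i := fun i => by
    rw [H908.mo_val, ext_single_zero]
  simpa [Matrix.mulVec_single_one] using h1 i

theorem low_mo_ext (a : O2) : low (mo (ext a)) = mat a := by
  ext i j
  have h2 : H908.tl (EuclideanSpace.single j.succ (1 : ℝ)) = EuclideanSpace.single j 1 := by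
    ext i
    fin_cases i <;> fin_cases j <;> simp [H908.tl]
  change (mo (ext a)).1 i.succ j.succ = a (EuclideanSpace.single j 1) i
  rw [H908.mo_val, H908.ext_succ]
  change a (H908.tl (EuclideanSpace.single j.succ (1 : ℝ))) i = _
  rw [h2]

/-- the curvature matrix does not change under the flip -/
theorem Km_flipF (f : Fr g) : Km g (flipF f) = Km g f := by
  ext i j
  have hA : ∀ a b, flipO.1 a b = if a = b then ![-1, 1, 1] a else (0 : ℝ) := fun a b => by
    change Matrix.diagonal ![-1, 1, 1] a b = _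
    rw [Matrix.diagonal_apply]
  change -Rf g (Fr.rot flipO f) i.succ 0 0 j.succ = -Rf g f i.succ 0 0 j.succ
  rw [Rf_rot]
  simp only [hA, ite_mul, zero_mul, Finset.sum_ite_eq', Finset.mem_univ, if_true]
  fin_cases i <;> fin_cases j <;> simp

variable [CompactSpace M] [T2Space M] {Φ : ℝ → Fr g → Fr g}

variable {Γ X B : Type} [Group Γ] [MetricSpace X] [ProperSpace X] [MulAction Γ X]
  [IsIsometricSMul Γ X] [TopologicalSpace B] [CompactSpace B] [T2Space B] [MulAction Γ B]
  [ContinuousConstSMul Γ B]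

/-- **the unstable Riccati solution in the frames of the leaves** -/
def ukOf (hΦ : IsHorFlow g (Pi.single 0 1) Φ) {L : Leaf Γ X B} {fr : X → Fr g} (O : Over Φ L fr)
    (D : MDat g Φ) : UK L where
  U x := cl (D.U (fr x))
  U_cont := continuous_cl fun i j => by
    have h1 : Continuous fun x => D.U (fr x) := D.cont.comp O.cont
    exact (continuous_apply j).comp ((continuous_apply i).comp h1)
  U_symm x v w := inner_cl_symm (D.ur.symm hΦ _) v w
  U_pos x v hv := by
    rw [inner_cl]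
    have h1 := D.ur.lo (fr x) v.ofLp
    have h2 : 0 < v.ofLp ⬝ᵥ v.ofLp := by
      rw [← inner_eq_dot, real_inner_self_eq_norm_sq]
      have := norm_pos_iff.2 hv
      positivity
    have h3 := mul_pos D.ur.pos h2
    linarith
  U_smul γ x := by rw [O.smul]
  U_rot a x v := by
    rw [O.rot, D.ur.rot hΦ (mo_ext_mem a), low_mo_ext, cl_mul, cl_mul]
    simp only [ContinuousLinearMap.coe_comp, Function.comp_apply]
    rw [cl_mat_transpose, cl_mat]
    rfl
  K x := cl (-Km g (fr x))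
  K_flip x := by rw [O.flip, Km_flipF]
  riccati x t := by
    have h1 := D.ur.ric (fr x) t
    have h2 : HasDerivAt (fun s => cl (D.U (Φ s (fr x))))
        (cl (Km g (Φ t (fr x)) - D.U (Φ t (fr x)) *
          D.U (Φ t (fr x)))) t := hasDerivAt_cl fun i j => by
      rw [Matrix.sub_apply]
      exact h1 i j
    simp only [O.flow]
    refine h2.congr_deriv ?_
    rw [cl_sub, cl_mul, cl_neg]
    abel

@[simp] theorem ukOf_U (hΦ : IsHorFlow g (Pi.single 0 1) Φ) {L : Leaf Γ X B} {fr : X → Fr g}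
    (O : Over Φ L fr) (D : MDat g Φ) (x : X) : (ukOf hΦ O D).U x = cl (D.U (fr x)) := rfl

@[simp] theorem ukOf_K (hΦ : IsHorFlow g (Pi.single 0 1) Φ) {L : Leaf Γ X B} {fr : X → Fr g}
    (O : Over Φ L fr) (D : MDat g Φ) (x : X) : (ukOf hΦ O D).K x = cl (-Km g (fr x)) := rfl

end Inst

end Vale.Agent.P207.N3.H618
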