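import Vale.Agent.P207.N3.H459.Dirn
import Vale.Agent.P207.N3.H607.RieA
import Vale.Agent.P207.N3.Geo.OverA
import Vale.Agent.P207.N3.H618.ConnG
import Vale.Agent.P207.N3.H618.Par

/-!
# P207, line N3, rows R11, R15, R23: the connection and the horospherical metric over model (A)

`parA`: parallel transport of the frames for the direction field `dirS`;
`Par.connL`: the connection of the leaf structure, at every base point;
`metrA`: the horospherical metric of the leaf structure over model (A), `hess_metrA` the second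
derivative of the Busemann functions.
-/

open scoped Manifold ContDiff ENNReal Topology
open Bundle MeasureTheory Set Filter Topology Metric

noncomputable section

set_option maxSynthPendingDepth 3
set_option linter.unusedSectionVars false

namespace Vale.Agent.P207.N3.H618

open Vale.Agent.P255 (RMetric Npc)
open Vale.Agent.P207 Vale.Agent.P207.Q Vale.Agent.P207.Q.Fl
open Vale.Agent.P207.N3.H465 (Deck PB Mt toMt ofMt Xt homeoMt)
open Vale.Agent.P207.N3.H566 (XF XM Exp lift EX)
open Vale.Agent.P207.N3.H747 (fl TubeR usys UC mC)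
open Vale.Agent.P207.N3.H156 (geoA jA lfA lfA_zero co)
open Vale.Agent.P207.N3.H76 (pk e0)
open Vale.Agent.P207.N3.H459 (dirS hasFDerivAt_dirS)
open Vale.Agent.P207.Q.H130 Vale.Agent.P207.Q.H545 Vale.Agent.P207.Q.H892

/-! ### every base point -/

section Leaf

open Vale.Agent.P207.N3.H76 Vale.Agent.P207.N3.H607

variable {Γ X Y : Type} [Group Γ] [MetricSpace X] [ProperSpace X] [MetricSpace Y]
  [ProperSpace Y] [MulAction Γ X] [MulAction Γ Y] [IsIsometricSMul Γ X] [IsIsometricSMul Γ Y]
  {G : Geo Γ X Y} {V : Type} [NormedAddCommGroup V] [NormedSpace ℝ V] {j : Y ≃ₜ V}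
  [FiniteDimensional ℝ V] {I : G.In3 j} {r₀ t₁ χ : ℝ} {U : X → E2 →L[ℝ] E2}

/-- **the connection of the leaf structure at the base point `o`** -/
def Par.connL (P : Par I.D U) (hc : Geo.Cst I r₀ t₁ χ) (R : Rie G j) (o : Y) :
    Conn (geoInL hc R o) U :=
  letI := G.actB o
  haveI := G.contB o
  P.conn R (hc.small o) (of_leaf hc o)

end Leaf

/-! ### model (A) -/

theorem mC_eq_cl (A : Matrix (Fin 2) (Fin 2) ℝ) : mC A = cl A := by
  refine ContinuousLinearMap.ext fun v => ?_
  ext i
  rw [H747.mC_apply, cl_apply]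

variable {M : Type} [TopologicalSpace M] [ChartedSpace (EV 3) M]
  [IsManifold 𝓘(ℝ, EV 3) ∞ M] {g : RMetric (EV 3) M} [CompactSpace M] [T2Space M]
  [ConnectedSpace M] [Nonempty (Fr g)] (hN : NegCurvature g) (m : M)

theorem EX_geoA (x : Xt g (npc_of_neg hN) m) :
    H607.EX (geoA hN m) (jA (npc_of_neg hN) m) x = EX (npc_of_neg hN) m x := rfl

section

variable (Dm : MDat g (fl g)) {ρ : ℝ} (hT : TubeR g ρ)
  {ε δ : ℝ} {gs : Fr g → E2 → E2} (hg : (usys Dm hT).Slope ε δ gs)

/-- **parallel transport of the frames over model (A)** -/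
def parA : Par (dirS hN m Dm hT hg) fun x => cl (Dm.U x.f) where
  Gam := Gam (npc_of_neg hN) m
  Gam_symm q v w := Gam_symm (npc_of_neg hN) m q v w
  along x c := hasDerivAt_EX_zero (npc_of_neg hN) m x e0 c
  lf_zero x := lfA_zero (npc_of_neg hN) m x
  across x v c := by
    have h1 := hasDerivAt_EX_zero (npc_of_neg hN) m x (pk 0 v) c
    refine h1.congr_of_eventuallyEq (Eventually.of_forall fun t => ?_)
    change EX (npc_of_neg hN) m (lift _ (co (pk 0 (t • v))) x) c =
      EX (npc_of_neg hN) m (lift _ (t • co (pk 0 v)) x) c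
    rw [← H156.co_smul, ← H76.pk_smul, mul_zero]
  W_der x v := by
    have h1 := hasFDerivAt_dirS hN m Dm hT hg x
    have h2 : HasDerivAt (fun t : ℝ => t • v) v 0 := by
      simpa using (hasDerivAt_id (0 : ℝ)).smul_const v
    have h3 : HasFDerivAt ((dirS hN m Dm hT hg).W x) (H265.pk0C.comp (UC Dm x.f))
        ((0 : ℝ) • v) := by
      rw [zero_smul]
      exact h1
    have h4 := h3.comp_hasDerivAt (0 : ℝ) h2
    refine h4.congr_deriv ?_
    rw [← mC_eq_cl]
    rfl

end

section Metr

variable {hN} {m} {I : (geoA hN m).In3 (jA (npc_of_neg hN) m)} {r₀ t₁ χ : ℝ}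
  (hc : H76.Geo.Cst I r₀ t₁ χ) (Dm : MDat g ((horFlows g).Φ 0))

/-- the unstable Riccati solution in the frames of the leaf structure over model (A) -/
def ukA (o : Mt (sys g (npc_of_neg hN)) m) : UK (hc.leaf o) :=
  ukOf ((horFlows g).hor 0) (over_leaf hc o) Dm

/-- **the connection of the leaf structure over model (A)** -/
def connA (P : Par I.D fun x => cl (Dm.U x.f)) (o : Mt (sys g (npc_of_neg hN)) m) :
    Conn (H607.geoInL hc (H607.rieA hN m) o) (ukA hc Dm o).U :=
  P.connL hc (H607.rieA hN m) o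

/-- **the horospherical metric of the leaf structure over model (A)** -/
def metrA (P : Par I.D fun x => cl (Dm.U x.f)) (o : Mt (sys g (npc_of_neg hN)) m) :
    Metr (hc.leaf o) :=
  Conn.metr (k := ukA hc Dm o) (connA hc Dm P o)

theorem metrA_U (P : Par I.D fun x => cl (Dm.U x.f)) (o : Mt (sys g (npc_of_neg hN)) m)
    (x : Xt g (npc_of_neg hN) m) : (metrA hc Dm P o).U x = cl (Dm.U x.f) := rfl

theorem metrA_K (P : Par I.D fun x => cl (Dm.U x.f)) (o : Mt (sys g (npc_of_neg hN)) m)
    (x : Xt g (npc_of_neg hN) m) : (metrA hc Dm P o).K x = cl (-Km g x.f) := rfl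

/-- **the second derivative of the Busemann functions over model (A)** -/
theorem hess_metrA (P : Par I.D fun x => cl (Dm.U x.f)) (o : Mt (sys g (npc_of_neg hN)) m) :
    H722.HessIn (H607.geoInL hc (H607.rieA hN m) o) (metrA hc Dm P o) :=
  Conn.metr_hess (k := ukA hc Dm o) (connA hc Dm P o)

end Metr

end Vale.Agent.P207.N3.H618
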